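import Vale.Agent.P366.MathlibUsed

open MeasureTheory Metric Filter Topology Set
open scoped ContDiff ENNReal

noncomputable section
namespace Vale.Agent.P366.Stmt

/-! ### Calculus on Euclidean space -/

section General

variable {V : Type} [NormedAddCommGroup V] [InnerProductSpace ℝ V] [MeasurableSpace V]

/-- The integral of `θ ↦ h (R θ)` over the unit sphere with the surface measure induced by the
volume `m`. -/
def sph (m : Measure V) (R : ℝ) (h : V → ℝ) : ℝ :=
  ∫ θ : sphere (0 : V) 1, h (R • (θ : V)) ∂m.toSphere

end General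

variable {n : ℕ}

/-- Euclidean `n`-space: the coordinate space. -/
abbrev E (n : ℕ) := EuclideanSpace ℝ (Fin n)

/-- The components of a covariant 2-tensor field. -/
abbrev Field (n : ℕ) := E n → Fin n → Fin n → ℝ

/-- The Euclidean length of the coordinate vector `x`. -/
def len (x : E n) : ℝ := ‖x‖

/-- `f` is smooth. -/
def Smooth (f : E n → ℝ) : Prop := ContDiff ℝ ∞ f

/-- The partial derivative in the direction of the `i`-th coordinate. -/
def pd (i : Fin n) (f : E n → ℝ) (x : E n) : ℝ := lineDeriv ℝ f x (EuclideanSpace.single i 1)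

/-! ### Riemannian geometry of a metric `g` -/

/-- The matrix of components at `x`. -/
def mat (g : Field n) (x : E n) : Matrix (Fin n) (Fin n) ℝ := g x

/-- The components of the inverse metric. -/
def up (g : Field n) (i j : Fin n) (x : E n) : ℝ := (mat g x)⁻¹ i j

/-- The Christoffel symbol with upper index `k` and lower indices `i`, `j` of the metric `g`. -/
def chr (g : Field n) (k i j : Fin n) (x : E n) : ℝ :=
  (∑ l, up g k l x *
    (pd i (fun y => g y j l) x + pd j (fun y => g y i l) x - pd l (fun y => g y i j) x)) / 2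

/-- The scalar curvature of `g`. -/
def scal (g : Field n) (x : E n) : ℝ :=
  ∑ i, ∑ j, up g i j x * ∑ k, (pd k (chr g k i j) x - pd j (chr g k i k) x +
    ∑ l, (chr g k k l x * chr g l i j x - chr g k j l x * chr g l i k x))

/-- The trace of `K` with respect to `g`. -/
def tr (g K : Field n) (x : E n) : ℝ := ∑ i, ∑ j, up g i j x * K x i j

/-- The squared norm of `K` with respect to `g`. -/
def normSq (g K : Field n) (x : E n) : ℝ :=
  ∑ i, ∑ j, ∑ k, ∑ l, up g i k x * up g j l x * K x i j * K x k l

/-- The norm of the covector field `w` with respect to `g`. -/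
def covNorm (g : Field n) (w : Fin n → E n → ℝ) (x : E n) : ℝ :=
  √(∑ i, ∑ j, up g i j x * w i x * w j x)

/-- The tensor `π = K - (tr K) g`. -/
def momT (g K : Field n) : Field n := fun x i j => K x i j - tr g K x * g x i j

/-- The components of the momentum density `J = div π`. -/
def mom (g K : Field n) (j : Fin n) (x : E n) : ℝ :=
  ∑ i, ∑ k, up g i k x * (pd k (fun y => momT g K y i j) x -
    ∑ l, (chr g l k i x * momT g K x l j + chr g l k j x * momT g K x i l))

/-- The energy density `μ`. -/
def mu (g K : Field n) (x : E n) : ℝ := (scal g x + tr g K x ^ 2 - normSq g K x) / 2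

/-- The components of the unit normal of the level set of `F`, pointing to larger `F`. -/
def nrm (g : Field n) (F : E n → ℝ) (i : Fin n) (x : E n) : ℝ :=
  (∑ j, up g i j x * pd j F x) / covNorm g (fun j => pd j F) x

/-- The trace of `K` over the tangent space of the level set of `F` through `x`. -/
def trS (g K : Field n) (F : E n → ℝ) (x : E n) : ℝ :=
  tr g K x - ∑ i, ∑ j, K x i j * nrm g F i x * nrm g F j x

/-- The covariant Hessian of `F`. -/
def hess (g : Field n) (F : E n → ℝ) : Field n := fun x i j =>
  pd i (pd j F) x - ∑ k, chr g k i j x * pd k F x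

/-- The future outgoing null expansion of the level set of `F` through `x`: its mean curvature
with respect to the unit normal `nrm g F` plus the trace of `K` over its tangent space. -/
def thetaPlus (g K : Field n) (F : E n → ℝ) (x : E n) : ℝ :=
  trS g (hess g F) F x / covNorm g (fun j => pd j F) x + trS g K F x

/-! ### Exterior initial data -/

/-- `F` is a smooth defining function of an exterior domain `{0 ≤ F}`: the domain is connected,
contains a neighbourhood of infinity and has the smooth (and compact) boundary `{F = 0}`. -/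
def IsExt (F : E n → ℝ) : Prop :=
  Smooth F ∧ (∀ x, F x = 0 → ∃ i, pd i F x ≠ 0) ∧ IsConnected {x | 0 ≤ F x} ∧
    ∃ R, ∀ x, R < len x → 0 < F x

/-- Initial data on the exterior domain `Ω = {0 ≤ F}` of Euclidean space with nonempty
boundary: a Riemannian metric `g` and a symmetric tensor `K`, smooth up to the boundary (as
restrictions of globally smooth fields). -/
structure Exterior (n : ℕ) where
  F : E n → ℝ
  g : Field n
  K : Field n
  dom : IsExt F
  bdry : ∃ x, F x = 0
  smooth : ∀ i j, Smooth (fun x => g x i j) ∧ Smooth (fun x => K x i j)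
  symm : ∀ x i j, g x i j = g x j i ∧ K x i j = K x j i
  pos : ∀ x, 0 ≤ F x → (mat g x).PosDef

/-- `f = O(r ^ (-q))` at infinity. -/
def BigO (q : ℝ) (f : E n → ℝ) : Prop := ∃ C R : ℝ, ∀ x, R < len x → |f x| ≤ C * len x ^ (-q)

/-- Lebesgue measure. -/
def vol (n : ℕ) : Measure (E n) := (volume : Measure (Fin n → ℝ)).map (WithLp.toLp 2)

/-- The integral of `h` over the centred coordinate sphere of radius `R` with the Euclidean
area element. -/
def sphInt (R : ℝ) (h : E n → ℝ) : ℝ := R ^ (n - 1) * sph (vol n) R h

/-- The area of the unit sphere. -/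
def omega (n : ℕ) : ℝ := sphInt 1 (fun _ : E n => 1)

/-- The flux of `W` through the centred coordinate sphere of radius `R` (Euclidean normal and
area element), divided by `(n - 1) ω`. -/
def flx (W : Fin n → E n → ℝ) (R : ℝ) : ℝ :=
  sphInt R (fun x => ∑ i, W i x * (x i / len x)) / ((n - 1) * omega n)

namespace Exterior

variable (D : Exterior n)

/-- Asymptotic flatness of order `q > (n - 2) / 2`. -/
def IsAF : Prop := ∃ q : ℝ, (n : ℝ) / 2 - 1 < q ∧ ∀ i j k l,
    BigO q (fun x => D.g x i j - if i = j then 1 else 0) ∧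
    BigO (q + 1) (pd k fun x => D.g x i j) ∧
    BigO (q + 1 + 1) (pd l (pd k fun x => D.g x i j)) ∧
    BigO (q + 1) (fun x => D.K x i j) ∧
    BigO (q + 1 + 1) (pd k fun x => D.K x i j)

/-- The dominant energy condition. -/
def DEC : Prop := ∀ x, 0 ≤ D.F x → covNorm D.g (mom D.g D.K) x ≤ mu D.g D.K x

/-- The boundary is weakly future trapped. -/
def Trapped : Prop := ∀ x, D.F x = 0 → thetaPlus D.g D.K D.F x ≤ 0

/-- `m` is the ADM energy. -/
def IsEnergy (m : ℝ) : Prop :=
  Tendsto (flx fun i x => (∑ j, (pd j (fun y => D.g y i j) x - pd i (fun y => D.g y j j) x)) / 2)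
    atTop (𝓝 m)

/-- `P` is the ADM momentum. -/
def IsMomentum (P : Fin n → ℝ) : Prop :=
  ∀ i, Tendsto (flx fun j x => momT D.g D.K x i j) atTop (𝓝 (P i))

/-- Admissible test fields: smooth, compactly supported, of `g`-length at most one on `Ω`. -/
def TestField (X : Fin n → E n → ℝ) : Prop :=
  (∀ i, Smooth (X i)) ∧ (∃ R, ∀ x, R < len x → ∀ i, X i x = 0) ∧
    ∀ x, 0 ≤ D.F x → ∑ i, ∑ j, D.g x i j * X i x * X j x ≤ 1

/-- The `g`-area of the boundary `{G = 0}` of `{0 ≤ G} ⊆ Ω`, as the
supremum of the integrals over `{0 ≤ G}` of the `g`-divergence of the admissible test fields with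
respect to the Riemannian volume. -/
def area (G : E n → ℝ) : ℝ≥0∞ :=
  sSup {a | ∃ X, D.TestField X ∧ a = ENNReal.ofReal
    (∫ x in {x | 0 ≤ G x}, ∑ i, pd i (fun y => √(mat D.g y).det * X i y) x ∂vol n)}

/-- `A_min`: the infimum of the areas of the enclosing cuts. -/
def Amin : ℝ≥0∞ := sInf {a | ∃ G, IsExt G ∧ (∀ x, 0 ≤ G x → 0 ≤ D.F x) ∧ a = D.area G}

end Exterior

end Vale.Agent.P366.Stmt
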